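import Vale.Agent.P281.R2.H877.Gf
import Vale.Agent.P281.H723.FS.Fin

/-!
# P281, R2, row B6: generically finite orbifold maps to hyperbolic orbifolds
-/

open scoped Manifold ContDiff Topology
open Filter Set

set_option linter.all false

noncomputable section

namespace Vale.Agent.P281.R2.H877

open Vale.Agent.P281 Vale.Agent.P272.K Vale.Agent.P285.LK
open Vale.Agent.P281.R2.H391 (ZD kodX_le kodX_orb b1)
open Vale.Agent.P281.R2.H73 (b2)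

section
variable {n : ℕ} {X Z Y : Type}
  [TopologicalSpace X] [T2Space X] [ConnectedSpace X] [ChartedSpace (Cm n) X]
  [IsManifold 𝓘(ℂ, Cm n) ω X]
  [TopologicalSpace Z] [ChartedSpace (Cm n) Z] [IsManifold 𝓘(ℂ, Cm n) ω Z]
  [TopologicalSpace Y] [ConnectedSpace Y] [ChartedSpace (Cm n) Y] [IsManifold 𝓘(ℂ, Cm n) ω Y]
  {Δ : Set X → ℝ} {j : Z → X} {f : Z → Y}

theorem kodF_le_kodX (hΔ : FS.IsSNC (Cm n) Δ) (hj : FS.BigOpen (Cm n) j)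
    (hf : ContMDiff 𝓘(ℂ, Cm n) 𝓘(ℂ, Cm n) ω f)
    (hs : ∃ z, Function.Surjective (mfderiv 𝓘(ℂ, Cm n) 𝓘(ℂ, Cm n) f z)) :
    FS.kodF n n Δ j f ≤ FS.kodX (Cm n) Δ := by
  rw [FS.kodF_eq, FS.kodX_eq, JB.kod_eq]
  unfold H713.TL.kodF
  refine iSup₂_le fun l hl => ?_
  have h1 := Gf.kodGE_gf (n := n) hj hf hs (FS.isSNC_of hΔ) (l := l) hl
  unfold Vale.Agent.P281.kod
  exact le_iSup₂_of_le l h1 le_rfl

/-- generically finite orbifold maps (in codimension one) do not decrease the Kodaira dimension -/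
theorem kodX_le_of_orbMor (hΔ : FS.IsSNC (Cm n) Δ) (hj : FS.BigOpen (Cm n) j)
    (hf : ContMDiff 𝓘(ℂ, Cm n) 𝓘(ℂ, Cm n) ω f)
    (hs : ∃ z, Function.Surjective (mfderiv 𝓘(ℂ, Cm n) 𝓘(ℂ, Cm n) f z))
    {Δ₁ : Set Z → ℝ} (hr : FS.IsRestr (Cm n) Δ j Δ₁) {Γ : Set Y → ℝ} (hΓ : FS.IsSNC (Cm n) Γ)
    (hm : FS.OrbMor (Cm n) (Cm n) f Δ₁ Γ) : FS.kodX (Cm n) Γ ≤ FS.kodX (Cm n) Δ := by
  refine le_trans ?_ (kodF_le_kodX hΔ hj hf hs)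
  obtain ⟨hΔ₁, h1, h2⟩ := hr
  rw [FS.kodF_eq]
  refine H713.CO.comp_g H413.TZ.genPart (FS.isSNC_of hΔ) hj hf hs hΓ.1 ?_ (FS.isSNC_of hΔ₁)
    ⟨h1, h2⟩ hm
  intro z G hG hz
  exact subset_closure ⟨⟨G, hG, hz⟩, Filter.Eventually.of_forall fun y => hΓ.2 y⟩

end

section
variable {n k : ℕ} {X Z Y : Type}
  [TopologicalSpace X] [T2Space X] [ConnectedSpace X] [ChartedSpace (Cm n) X]
  [IsManifold 𝓘(ℂ, Cm n) ω X]
  [TopologicalSpace Z] [ChartedSpace (Cm n) Z] [IsManifold 𝓘(ℂ, Cm n) ω Z]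
  [TopologicalSpace Y] [T2Space Y] [CompactSpace Y] [ConnectedSpace Y] [ChartedSpace (Cm n) Y]
  [IsManifold 𝓘(ℂ, Cm n) ω Y]
  {Δ : Set X → ℝ} {j : Z → X} {f : Z → Y}
  {s : Fin k → Chart n Y → Cm n → ℂ} {ψ : Fin k → Chart n Y → Cm n → ℝ}
  {c : Fin k → Chart n Y → Cm n → Matrix (Fin n) (Fin n) ℂ} {μ : Fin k → ℕ}
  {w : Chart n Y → Cm n → Matrix (Fin n) (Fin n) ℂ}

/-- **B6**: `(X, Δ)` has maximal Kodaira dimension if it has a generically finite orbifold map to a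
pair `(Y, Γ)` which dominates a hyperbolic orbifold -/
theorem kodX_cover (hn : 1 ≤ n) (hw : IsKahler w) (hS : IsSNCDivisor s ψ c) (hμ : ∀ i, μ i ≠ 1)
    (hY : OrbifoldBrody n Y s μ) {Γ : Set Y → ℝ} (hΓ : FS.IsSNC (Cm n) Γ)
    (hle : ∀ i, 1 - (μ i : ℝ)⁻¹ ≤ Γ (ZD (s i))) (hΔ : FS.IsSNC (Cm n) Δ)
    (hj : FS.BigOpen (Cm n) j) (hf : ContMDiff 𝓘(ℂ, Cm n) 𝓘(ℂ, Cm n) ω f)
    (hs : ∃ z, Function.Surjective (mfderiv 𝓘(ℂ, Cm n) 𝓘(ℂ, Cm n) f z))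
    {Δ₁ : Set Z → ℝ} (hr : FS.IsRestr (Cm n) Δ j Δ₁)
    (hm : FS.OrbMor (Cm n) (Cm n) f Δ₁ Γ) : FS.kodX (Cm n) Δ = n := by
  refine le_antisymm (kodX_le Δ) ?_
  rw [← kodX_orb b1 (fun Δ kk m L t r hD hm hk hK => b2 hD hm hk hK) hn hw hS hμ hY hΓ hle]
  exact kodX_le_of_orbMor hΔ hj hf hs hr hΓ hm

end

end Vale.Agent.P281.R2.H877
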