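import Vale.Agent.P281.R2.H877.Pb4
import Vale.Agent.P285.R2.H80.Defs
import Vale.Agent.P281.R2.H73.Bun

/-!
# P281, R2, row B7 (5): a compact complex manifold with an ample line bundle has a Fubini-Study
metric
-/

open scoped Manifold ContDiff ComplexOrder Topology Matrix
open MeasureTheory Filter Set

set_option linter.all false

noncomputable section

namespace Vale.Agent.P281.R2.H877.PB

open Vale.Agent.P281 Vale.Agent.P281.R2.H73
open Vale.Agent.P272.K Vale.Agent.P285.H281.FD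
open Vale.Agent.P285.TM (Wt cv idx mem_idx)
open Vale.Agent.P285.H591.TM (cv_eq isClosedForm_cv cv_herm mem_U_nhds)
open Vale.Agent.P272.K.INT (IsClosedForm)
open Vale.Agent.P285.R2.H80 (Ample DefinesEmbedding)

section
variable {n : ℕ} {Z : Type} [TopologicalSpace Z] [ChartedSpace (Cm n) Z]
  [IsManifold 𝓘(ℂ, Cm n) ω Z]

/-- positivity of the Fubini-Study form of an immersion -/
theorem fs_posDef {N : ℕ} {z : Cm n} {F : Fin (N + 1) → Cm n → ℂ}
    (hF : ∀ a, ContDiffAt ℂ ω (F a) z) (h0 : ∃ a, F a z ≠ 0)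
    (himm : ∀ k, F k z ≠ 0 → ∀ v : Cm n, (∀ j, fderiv ℂ (fun y => F j y / F k y) z v = 0) → v = 0) :
    (cHess (fun y => Real.log (∑ a, ‖F a y‖ ^ 2)) z).PosDef := by
  have h1 := lse_posDef (A := Fin (N + 1)) (F := F) (φ := fun _ _ => (0 : ℝ)) (z := z)
    (B := (0 : Matrix (Fin n) (Fin n) ℂ)) hF (fun a => contDiffAt_const) (fun a => ?_) h0 ?_
  · rw [add_zero] at h1
    refine (congrArg Matrix.PosDef (cHess_congr ?_)).mp h1
    refine Filter.Eventually.of_forall fun y => ?_
    simp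
  · have h2 : cHess (fun _ : Cm n => (0 : ℝ)) z = 0 := by
      ext i j
      have h3 : dzb j (fun _ : Cm n => (((0 : ℝ)) : ℂ)) = fun _ => 0 := by
        funext y
        simp [dzb]
      show dz i (dzb j fun _ : Cm n => (((0 : ℝ)) : ℂ)) z = 0
      rw [h3]
      simp [dz]
    show (cHess (fun _ : Cm n => (0 : ℝ)) z + 0).PosSemidef
    rw [h2, add_zero]
    exact Matrix.PosSemidef.zero
  · intro _ v _ hab
    have hd : ∀ a, DifferentiableAt ℂ (F a) z := fun a => (hF a).differentiableAt (by simp)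
    have h3 : ∀ b, ∑ j, v j * PP F (fun _ _ => (0 : ℝ)) z b j = fderiv ℂ (F b) z v := by
      intro b
      rw [Vale.Agent.P285.H231.PB.lin_sum]
      refine Finset.sum_congr rfl fun q _ => ?_
      have h4 : dz q (fun _ : Cm n => (((0 : ℝ)) : ℂ)) z = 0 := by simp [dz]
      simp only [PP]
      rw [h4, mul_zero, add_zero, dz_of_holo (hd b), smul_eq_mul]
    simp only [h3] at hab
    obtain ⟨k, hk⟩ := h0
    refine himm k hk v fun j => ?_
    have hq : DifferentiableAt ℂ (fun y => F j y / F k y) z :=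
      ((hF j).div (hF k) hk).differentiableAt (by simp)
    have h5 : F j =ᶠ[𝓝 z] fun y => (F j y / F k y) * F k y := by
      filter_upwards [(hF k).continuousAt.eventually_ne hk] with y hy
      rw [div_mul_cancel₀ _ hy]
    have h6 : fderiv ℂ (F j) z v =
        (F j z / F k z) * fderiv ℂ (F k) z v + F k z * fderiv ℂ (fun y => F j y / F k y) z v := by
      rw [h5.fderiv_eq, fderiv_fun_mul hq (hd k)]
      simp
    have h7 := hab k j
    have h8 : F k z * (F k z * fderiv ℂ (fun y => F j y / F k y) z v) = 0 := by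
      have h9 : F k z * fderiv ℂ (F j) z v = F j z * fderiv ℂ (F k) z v +
          F k z * (F k z * fderiv ℂ (fun y => F j y / F k y) z v) := by
        rw [h6]
        field_simp
      rw [h7] at h9
      linear_combination -h9
    rcases mul_eq_zero.1 h8 with h | h
    · exact absurd h hk
    · rcases mul_eq_zero.1 h with h | h
      · exact absurd h hk
      · exact h

theorem fs_of_ample {L : Bd Z} (hL : IsLB n L) (h : Ample n L) :
    ∃ w : Chart n Z → Cm n → Matrix (Fin n) (Fin n) ℂ, Vale.Agent.P272.K.IsKahler w ∧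
      ∃ (M : ℕ) (Q : Z → Fin M → ℂ), FS.IsFS (n := n) Q w := by
  obtain ⟨k, hk, N, s, hs⟩ := h
  have hA : IsLB n (L.pow k) := Vale.Agent.P285.R2.H391.isLB_pow hL k
  have hSpos : ∀ i x, x ∈ (L.pow k).U i → 0 < ∑ j, ‖s j i x‖ ^ 2 := by
    intro i x hi
    obtain ⟨j, hj⟩ := hs.ne_zero i x hi
    exact Finset.sum_pos' (fun a _ => by positivity) ⟨j, Finset.mem_univ j, by positivity⟩
  have hmet : IsMet n (L.pow k) (fun i x => Real.log (∑ j, ‖s j i x‖ ^ 2)) := by
    refine ⟨fun i e x he hi => ?_, fun i i' x hi hi' => ?_⟩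
    · refine (ContDiffAt.sum fun j _ => ((((hs.sec j).holo i e x he hi).restrict_scalars
        ℝ).of_le le_top).norm_sq ℝ).log ?_
      rw [he.left_inv]
      exact (hSpos i x hi).ne'
    · have h1 : ∑ j, ‖s j i x‖ ^ 2 = ‖(L.pow k).g i i' x‖ ^ 2 * ∑ j, ‖s j i' x‖ ^ 2 := by
        rw [Finset.mul_sum]
        refine Finset.sum_congr rfl fun j _ => ?_
        rw [(hs.sec j).change i i' x hi hi', norm_mul, mul_pow]
      have h2 : (L.pow k).g i i' x ≠ 0 := hA.ne_zero i i' x hi hi'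
      rw [h1, Real.log_mul (by positivity) (hSpos i' x hi').ne', add_comm]
  have hW : Wt hA.lb (fun i x => Real.log (∑ j, ‖s j i x‖ ^ 2)) := ⟨hmet.smooth, hmet.change⟩
  have hc := isClosedForm_cv hW
  refine ⟨cv hA.lb (fun i x => Real.log (∑ j, ‖s j i x‖ ^ 2)),
    ⟨⟨hc.smooth, fun e x he => ?_, hc.form⟩, fun e x he i j l => hc.closed e x he l i j⟩,
    N + 1, fun z b => s b (idx hA.lb z) z, 1, one_pos, fun x => ?_⟩
  · obtain ⟨i, hi⟩ := hA.cover x
    rw [cv_eq hW he hi]
    refine fs_posDef (fun a => (hs.sec a).holo i e x he hi) ?_ fun b hb v hv => ?_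
    · obtain ⟨j, hj⟩ := hs.ne_zero i x hi
      exact ⟨j, by rw [he.left_inv]; exact hj⟩
    · rw [he.left_inv] at hb
      exact hs.immersive i e x he hi b hb v hv
  · obtain ⟨i, hi⟩ := hA.cover x
    obtain ⟨j₀, hj₀⟩ := hs.ne_zero i x hi
    have he : At (chartAt (Cm n) x) x := ⟨chart_mem_atlas _ _, mem_chart_source _ _⟩
    refine ⟨fun b => s b i, fun b => holV_of_chart he ((hs.sec b).holo i _ x he hi),
      ⟨j₀, hj₀⟩, ?_⟩
    filter_upwards [(hA.isOpen i).mem_nhds hi] with z hz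
    have hz' := mem_idx hA.lb z
    refine ⟨⟨(L.pow k).g (idx hA.lb z) i z, hA.ne_zero _ _ z hz' hz, fun b =>
      (hs.sec b).change _ _ z hz' hz⟩, fun e hez => ?_⟩
    have h1 : cv hA.lb (fun i x => Real.log (∑ j, ‖s j i x‖ ^ 2)) e (e z) =
      cHess (fun y => Real.log (∑ j, ‖s j i (e.symm y)‖ ^ 2)) (e z) := cv_eq hW hez hz
    show cv hA.lb (fun i x => Real.log (∑ j, ‖s j i x‖ ^ 2)) e (e z) = ((1 : ℝ) : ℂ) •
      cHess (fun y => Real.log (∑ b, ‖s b i (e.symm y)‖ ^ 2)) (e z)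
    rw [h1, Complex.ofReal_one, one_smul]

end

end Vale.Agent.P281.R2.H877.PB
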