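import Vale.Agent.P281.R2.H391.B1

/-!
# P281, R2, row B7 (6): a compact Kähler manifold with a hyperbolic orbifold structure has an ample
line bundle
-/

open scoped Manifold ContDiff Topology
open Filter Set MeasureTheory

set_option linter.all false

noncomputable section

namespace Vale.Agent.P281.R2.H877.PB

open Vale.Agent.P281 Vale.Agent.P272.K Vale.Agent.P285.H281.FD Vale.Agent.P285.LK
open Vale.Agent.P285.LK.H292
open Vale.Agent.P281.R2.H73 (DivB)
open Vale.Agent.P281.R2.H391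
open Vale.Agent.P285.R2.H391 (DivGe)
open Vale.Agent.P285.R2.H80 (Ample)

section
variable {n : ℕ} {X : Type} [TopologicalSpace X] [ChartedSpace (Cm n) X]
  [IsManifold 𝓘(ℂ, Cm n) ω X] {k : ℕ} {s : Fin k → Chart n X → Cm n → ℂ}
  {ψ : Fin k → Chart n X → Cm n → ℝ} {c : Fin k → Chart n X → Cm n → Matrix (Fin n) (Fin n) ℂ}

lemma isClosed_ZD (hS : IsSNCDivisor s ψ c) (i : Fin k) : IsClosed (ZD (s i)) := by
  have hs := locEq_of_divisor (hS.div i)
  rw [← isOpen_compl_iff, isOpen_iff_mem_nhds]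
  intro x hx
  have he : At (chartAt (Cm n) x) x := ⟨chart_mem_atlas _ x, mem_chart_source _ x⟩
  set e : Chart n X := chartAt (Cm n) x
  have h1 : s i e (e x) ≠ 0 := fun h => hx ((mem_ZD hs he).2 h)
  have h2 : ContinuousAt (fun y => s i e (e y)) x :=
    ContinuousAt.comp (g := s i e) (hs.holo e x he).continuousAt (e.continuousAt he.2)
  filter_upwards [h2.eventually_ne h1, e.open_source.mem_nhds he.2] with y hy hy' hmem
  exact hy ((mem_ZD hs ⟨he.1, hy'⟩).1 hmem)

/-- the reduced divisor is log canonical -/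
theorem exists_red [Nonempty X] (hS : IsSNCDivisor s ψ c) (hne : ∀ i, (ZD (s i)).Nonempty) :
    ∃ (D : Bd X) (t : D.ι → X → ℂ), IsLB n D ∧ IsSec n D t ∧ (∃ x, NZ D t x) ∧ Lc n 1 D t ∧
      DivGe n D t s fun _ => 1 := by
  classical
  set T : Finset (Set X) := Finset.univ.image fun i => ZD (s i) with hT
  set kk : Set X → ℕ := fun D => if D ∈ T then 1 else 0 with hkk
  have hinj := inj_ZD hS hne
  have hmem : ∀ i, ZD (s i) ∈ T := fun i => Finset.mem_image_of_mem _ (Finset.mem_univ i)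
  have hk1 : ∀ i, kk (ZD (s i)) = 1 := fun i => if_pos (hmem i)
  have hkT : ∀ D, kk D ≠ 0 → D ∈ T := by
    intro D hD
    by_contra h
    exact hD (if_neg h)
  have hchart : ∀ x : X, At (chartAt (Cm n) x : Chart n X) x := fun x =>
    ⟨chart_mem_atlas _ x, mem_chart_source _ x⟩
  obtain ⟨L, t, hB, hloc⟩ := exists_divB (n := n) (T := T) (kk := kk) hkT
    (fun D hD => by
      obtain ⟨i, -, rfl⟩ := Finset.mem_image.1 hD
      exact isClosed_ZD hS i)
    (fun D hD x => by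
      obtain ⟨i, -, rfl⟩ := Finset.mem_image.1 hD
      exact ⟨_, eqn_snc hS i (hchart x)⟩)
  have hdge : DivGe n L t s fun i => kk (ZD (s i)) :=
    divGe_of_divB hS hne (fun i => by rw [hk1]; exact one_ne_zero) hB
  simp only [hk1] at hdge
  refine ⟨L, t, hB.lb, hB.sec, hB.ne, ?_, hdge⟩
  intro a ha ha1 i e x he hi
  obtain ⟨g, hg, hgt⟩ := hloc i x hi
  have ha1' : a < 1 := by simpa using ha1
  have hv : ∀ l : Fin k, ∃ v : X → ℂ, FS.HolAt (Cm n) v x ∧ v x ≠ 0 ∧
      ∀ᶠ z in 𝓝 x, g (ZD (s l)) z = s l e (e z) * v z := fun l =>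
    MF.leq_unit (E := Cm n) (eqn_snc hS l he) (hg _ (hmem l))
  choose v hvh hv0 hve using hv
  obtain ⟨W, hW, hI⟩ := Vale.Agent.P285.R2.H80.snc_int (s := fun l => s l e) (z₀ := e x)
    (fun l => (locEq_of_divisor (hS.div l)).holo e x he) (hS.normal e x he) (b := fun _ => a)
    fun _ => ha1'
  have hc : Tendsto e.symm (𝓝 (e x)) (𝓝 x) := by
    have := e.continuousAt_symm (e.map_source he.2)
    rw [ContinuousAt, e.left_inv he.2] at this
    exact this
  -- the unit
  have hu : ∀ l, AnalyticAt ℂ (fun z => v l (e.symm z)) (e x) := fun l => an_symm (hvh l) he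
  have hu0 : ∀ l, v l (e.symm (e x)) ≠ 0 := fun l => by rw [e.left_inv he.2]; exact hv0 l
  have h1 : ∀ᶠ z in 𝓝 (e x), ∀ l, ContinuousAt (fun z => v l (e.symm z)) z ∧
      v l (e.symm z) ≠ 0 := Filter.eventually_all.2 fun l =>
    ((hu l).eventually_analyticAt.mono fun z hz => hz.continuousAt).and
      ((hu l).continuousAt.eventually_ne (hu0 l))
  have h2 : ∀ᶠ z in 𝓝 (e x), ∀ l, g (ZD (s l)) (e.symm z) = s l e z * v l (e.symm z) := by
    filter_upwards [hc.eventually (Filter.eventually_all.2 hve),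
      e.open_target.mem_nhds (e.map_source he.2)] with z hz hzt l
    rw [hz l, e.right_inv hzt]
  obtain ⟨ρ, hρ, hball⟩ := Metric.nhds_basis_closedBall.mem_iff.1 ((h1.and h2).and hW)
  refine ⟨Metric.closedBall (e x) ρ, Metric.closedBall_mem_nhds _ hρ, ?_⟩
  have hK : IsCompact (Metric.closedBall (e x) ρ) := isCompact_closedBall _ _
  have h3 : IntegrableOn (fun z => (∏ l, ‖s l e z‖ ^ (-(2 * a))) *
      ∏ l, ‖v l (e.symm z)‖ ^ (-(2 * a))) (Metric.closedBall (e x) ρ) := by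
    refine (hI.mono_set fun z hz => (hball hz).2).mul_continuousOn ?_ hK
    refine continuousOn_finset_prod _ fun l _ => fun z hz => ?_
    have h4 := (hball hz).1.1 l
    exact (h4.1.norm.rpow_const (Or.inl (norm_ne_zero_iff.2 h4.2))).continuousWithinAt
  refine h3.congr_fun (fun z hz => ?_) hK.measurableSet
  have h5 := (hball hz).1.2
  show (∏ l, ‖s l e z‖ ^ (-(2 * a))) * ∏ l, ‖v l (e.symm z)‖ ^ (-(2 * a)) =
    ‖t i (e.symm z)‖ ^ (-(2 * a))
  have h6 : t i (e.symm z) = ∏ l, (s l e z * v l (e.symm z)) := by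
    rw [hgt]
    unfold FS.mon
    rw [hT, Finset.prod_image fun i _ i' _ h => hinj h]
    exact Finset.prod_congr rfl fun l _ => by rw [hk1, pow_one, h5 l]
  rw [h6, norm_prod, ← Real.finset_prod_rpow _ _ fun l _ => norm_nonneg _,
    ← Finset.prod_mul_distrib]
  exact Finset.prod_congr rfl fun l _ => by
    rw [norm_mul, Real.mul_rpow (norm_nonneg _) (norm_nonneg _)]

end

/-- a hyperbolic orbifold is projective -/
theorem ample_of_hyp {n k : ℕ} {X : Type} [TopologicalSpace X] [T2Space X] [CompactSpace X]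
    [ConnectedSpace X] [ChartedSpace (Cm n) X] [IsManifold 𝓘(ℂ, Cm n) ω X]
    {s : Fin k → Chart n X → Cm n → ℂ} {ψ : Fin k → Chart n X → Cm n → ℝ}
    {c : Fin k → Chart n X → Cm n → Matrix (Fin n) (Fin n) ℂ} {μ : Fin k → ℕ}
    {w : Chart n X → Cm n → Matrix (Fin n) (Fin n) ℂ} (hn : 1 ≤ n) (hw : IsKahler w)
    (hS : IsSNCDivisor s ψ c) (hμ : ∀ i, μ i ≠ 1) (hX : OrbifoldBrody n X s μ)
    (hne : ∀ i, (ZD (s i)).Nonempty) : ∃ A : Bd X, IsLB n A ∧ Ample n A := by
  obtain ⟨D, t, hD, ht, h0, hlc, hdge⟩ := exists_red hS hne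
  refine ⟨((Bd.can n X).pow 1).mul D, Vale.Agent.P285.R2.H391.isLB_mul
    (Vale.Agent.P285.R2.H391.isLB_pow Vale.Agent.P285.R2.H391.isLB_can 1) hD, ?_⟩
  refine (Vale.Agent.P285.R2.H391.p285_orb hn hw hS hμ hX hD ht h0 le_rfl hlc (fun i => ?_)
    hdge).2.1
  have h1 : (0 : ℝ) ≤ (μ i : ℝ)⁻¹ := by positivity
  simp only [Nat.cast_one, one_mul]
  linarith

end Vale.Agent.P281.R2.H877.PB
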