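import Vale.Agent.P281.R2.H877.Pb3
import Vale.Agent.P281.H723.FS.FinML

/-!
# P281, R2, row B7 (4): `K_X + Δ` has a Mori fibration on projective bundles with `e < m (r + 1)`
-/

open scoped Manifold ContDiff ComplexOrder Topology Matrix
open MeasureTheory Filter Set

set_option linter.all false

noncomputable section

namespace Vale.Agent.P281.R2.H877.PB

open Vale.Agent.P281 Vale.Agent.P281.R2.H73
open Vale.Agent.P272.K Vale.Agent.P285.H281.FD Vale.Agent.P285.H766.PB Vale.Agent.P285.H231.PB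
open Vale.Agent.P272.K.QN (jm)
open Vale.Agent.P285.TM (Wt cv idx mem_idx)
open Vale.Agent.P285.H591.TM (cv_eq isClosedForm_cv cv_herm mem_U_nhds)
open Vale.Agent.P272.K.INT (IsClosedForm)

/-- coefficient matrices -/
abbrev Fm (n : ℕ) (X : Type) [TopologicalSpace X] : Type :=
  Chart n X → Cm n → Matrix (Fin n) (Fin n) ℂ

section
variable {n r : ℕ} {Z : Type} [TopologicalSpace Z] [ChartedSpace (Cm n) Z]
  [IsManifold 𝓘(ℂ, Cm n) ω Z]
  {X : Type} [TopologicalSpace X] [ChartedSpace (Cm (n + r)) X]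
  [IsManifold 𝓘(ℂ, Cm (n + r)) ω X] {L : Fin (r + 1) → Bd Z} {N : Bd Z} {π : X → Z} {H : Bd X}
  {t : (j : Fin (r + 1)) → H.ι → (L j).ι → X → ℂ} {m e : ℕ}
  {w : Chart n Z → Cm n → Matrix (Fin n) (Fin n) ℂ}

theorem pull_at (hP : IsPB n r L π H t) {E : Chart (n + r) X} {x : X} (hE : At E x) :
    (H368.MFS.pull π w : Fm (n + r) X) E (E x) =
      (jm (fun z => chartAt (Cm n) (π x) (π (E.symm z))) (E x)).transpose *
        w (chartAt (Cm n) (π x)) (chartAt (Cm n) (π x) (π x)) *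
        (jm (fun z => chartAt (Cm n) (π x) (π (E.symm z))) (E x)).map (starRingEnd ℂ) := by
  unfold H368.MFS.pull
  rw [hE.left_inv]
  rfl

lemma at_c (x : Z) : At (chartAt (Cm n) x) x := ⟨chart_mem_atlas _ _, mem_chart_source _ _⟩

/-- the pull back of a Fubini-Study form -/
theorem isFS_pull (hP : IsPB n r L π H t) {M : ℕ} {Q : Z → Fin M → ℂ}
    (hQ : FS.IsFS (n := n) Q w) {c : ℝ} (hc : 0 < c) :
    FS.IsFS (n := n + r) (fun x => Q (π x))
      (fun E z => (c : ℂ) • (H368.MFS.pull π w : Fm (n + r) X) E z) := by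
  obtain ⟨c₁, hc₁, h⟩ := hQ
  refine ⟨c * c₁, mul_pos hc hc₁, fun x => ?_⟩
  obtain ⟨G, h1, ⟨b₀, h2⟩, h3⟩ := h (π x)
  have hπ : Tendsto π (𝓝 x) (𝓝 (π x)) := hP.holo_pi.continuous.continuousAt
  refine ⟨fun b y => G b (π y), fun b => ContMDiffAt.comp x (h1 b) (hP.holo_pi x), ⟨b₀, h2⟩, ?_⟩
  have h4 : ∀ᶠ z in 𝓝 (π x), ∀ b, FS.HolAt (FS.Cm n) (G b) z :=
    Filter.eventually_all.2 fun b => HolV.eventually (E := Cm n) (h1 b)
  have h5 : ∀ᶠ z in 𝓝 (π x), G b₀ z ≠ 0 :=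
    (ContMDiffAt.continuousAt (h1 b₀)).eventually_ne h2
  filter_upwards [hπ.eventually h3, hπ.eventually h4, hπ.eventually h5] with y hy1 hy2 hy3
  refine ⟨hy1.1, fun E hE => ?_⟩
  have hf := at_c (n := n) (π y)
  have e1 := hy1.2 (chartAt (Cm n) (π y)) hf
  have hs : ContDiffAt ℝ 2 (fun v => Real.log (∑ b, ‖G b ((chartAt (Cm n) (π y)).symm v)‖ ^ 2))
      (chartAt (Cm n) (π y) (π y)) := by
    have h6 : ∀ b, ContDiffAt ℝ 2 (fun v => G b ((chartAt (Cm n) (π y)).symm v))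
        (chartAt (Cm n) (π y) (π y)) := fun b =>
      ((holAt_cd hf (hy2 b)).restrict_scalars ℝ).of_le (by exact le_top)
    refine (ContDiffAt.sum fun b _ => (h6 b).norm_sq ℝ).log ?_
    have h7 : 0 < ∑ b, ‖G b ((chartAt (Cm n) (π y)).symm (chartAt (Cm n) (π y) (π y)))‖ ^ 2 := by
      rw [hf.left_inv]
      exact Finset.sum_pos' (fun b _ => by positivity) ⟨b₀, Finset.mem_univ _, by positivity⟩
    exact h7.ne'
  have e2 := hess_pull (u := fun z => Real.log (∑ b, ‖G b z‖ ^ 2)) hP hE hf hs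
  show (c : ℂ) • (H368.MFS.pull π w : Fm (n + r) X) E (E y) =
    ((c * c₁ : ℝ) : ℂ) • cHess (fun v => Real.log (∑ b, ‖G b (π (E.symm v))‖ ^ 2)) (E y)
  rw [pull_at hP hE, e2]
  have e3 : w (chartAt (Cm n) (π y)) (chartAt (Cm n) (π y) (π y)) = (c₁ : ℂ) •
    cHess (fun v => Real.log (∑ b, ‖G b ((chartAt (Cm n) (π y)).symm v)‖ ^ 2))
      (chartAt (Cm n) (π y) (π y)) := e1
  rw [e3, Matrix.mul_smul, Matrix.smul_mul, smul_smul, ← Complex.ofReal_mul]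

end

section
variable {n r d : ℕ} {Z : Type} [TopologicalSpace Z] [T2Space Z] [CompactSpace Z]
  [ChartedSpace (Cm n) Z] [IsManifold 𝓘(ℂ, Cm n) ω Z]
  {X : Type} [TopologicalSpace X] [ChartedSpace (Cm (n + r)) X]
  [IsManifold 𝓘(ℂ, Cm (n + r)) ω X]
  {F : Type} [TopologicalSpace F] [ChartedSpace (Cm d) F] [IsManifold 𝓘(ℂ, Cm d) ω F] [Nonempty F]
  {L : Fin (r + 1) → Bd Z} {N : Bd Z} {π : X → Z} {H : Bd X}
  {t : (j : Fin (r + 1)) → H.ι → (L j).ι → X → ℂ} {m e : ℕ}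
  {w : Chart n Z → Cm n → Matrix (Fin n) (Fin n) ℂ}

theorem hasMori (hr : 1 ≤ r) (hw : Vale.Agent.P272.K.IsKahler w) (hL : ∀ j, IsLB n (L j))
    (hN : IsLB n N) (hH : IsLB (n + r) H) (hP : IsPB n r L π H t) (he : e < m * (r + 1))
    {k : Set X → ℕ} {Δ : Set X → ℝ} {s : H.ι × N.ι → X → ℂ}
    (hD : DivB (n + r) k ((H.pow e).mul (pull π N)) s) (hk : ∀ D, (k D : ℝ) = m * Δ D)
    (hcase : (∀ D, Δ D < 1) ∨ ∃ (M : ℕ) (Q : Z → Fin M → ℂ), FS.IsFS (n := n) Q w)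
    {ι : F → X} (hι : ContMDiff 𝓘(ℂ, Cm d) 𝓘(ℂ, Cm (n + r)) ω ι)
    (himm : ∀ u, Function.Injective (mfderiv 𝓘(ℂ, Cm d) 𝓘(ℂ, Cm (n + r)) ι u)) :
    FS.HasMori (n + r) d Δ ι := by
  have hm : 0 < m := by
    rcases Nat.eq_zero_or_pos m with h | h
    · rw [h, zero_mul] at he
      exact absurd he (Nat.not_lt_zero _)
    · exact h
  have hm' : (0 : ℝ) < m := by exact_mod_cast hm
  have hmi : (0 : ℝ) < (m : ℝ)⁻¹ := inv_pos.2 hm'
  obtain ⟨ψ, c₀, hc₀, hψ', hpos⟩ := exists_psi (X := X) (e := e) (m := m) hw hL hN hH hP he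
  have hB : IsLB (n + r) (BB (n + r) m ((H.pow e).mul (pull π N))) := isLB_BB hD.lb m
  have hψ : IsMet (n + r) (BB (n + r) m ((H.pow e).mul (pull π N))) ψ := hψ'
  have hW : Wt hB.lb ψ := ⟨hψ.smooth, hψ.change⟩
  have hwp : IsClosedForm (H368.MFS.pull π w : Fm (n + r) X) :=
    Vale.Agent.P281.H167.NU.closed_pull hP.holo_pi (Vale.Agent.P272.K.INT.IsKahler.isClosedForm hw)
  have hcm : (0 : ℝ) < c₀ * (m : ℝ)⁻¹ := by positivity
  set θ : Fm (n + r) X := fun E z => ((c₀ * (m : ℝ)⁻¹ : ℝ) : ℂ) •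
    (H368.MFS.pull π w : Fm (n + r) X) E z with hθ
  set α : Fm (n + r) X := fun E z => θ E z + ((-((m : ℝ)⁻¹) : ℝ) : ℂ) • cv hB.lb ψ E z with hα
  have hθc : IsClosedForm θ := hwp.smul _
  have hαc : IsClosedForm α := hθc.add ((isClosedForm_cv hW).smul _)
  have hαp : ∀ E x, At E x → (α E (E x)).PosDef := by
    intro E x hE
    obtain ⟨h, hx⟩ := hH.cover x
    obtain ⟨b, hb⟩ := hN.cover (π x)
    have h1 := posDef_csmul (hpos E (chartAt (Cm n) (π x)) h b x hE (at_c (π x)) hx hb) hmi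
    refine (congrArg Matrix.PosDef ?_).mp h1
    have h2 : cv hB.lb ψ E (E x) = cHess (fun z => ψ (E, (h, b)) (E.symm z)) (E x) :=
      cv_eq hW hE (i := (E, (h, b))) ⟨hE, hx, hb⟩
    simp only [hα, hθ]
    rw [pull_at hP hE, h2]
    ext u v
    simp only [Matrix.add_apply, Matrix.sub_apply, Matrix.smul_apply, smul_eq_mul]
    push_cast
    ring
  have hαK : Vale.Agent.P272.K.IsKahler α :=
    ⟨⟨hαc.smooth, hαp, hαc.form⟩, fun E x hE i j l => hαc.closed E x hE l i j⟩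
  have hθp : ∀ E x, At E x → (θ E (E x)).PosSemidef := by
    intro E x hE
    simp only [hθ]
    rw [pull_at hP hE]
    exact psd_smul (Vale.Agent.P272.K.QN.posSemidefR (hw.posDef _ _ (at_c (π x))).posSemidef _)
      hcm.le
  have hθS : FS.IsSemiPos θ :=
    ⟨fs_closed11 hθc fun E x hE => (hθp E x hE).isHermitian, hθp⟩
  have hrk : ∀ x, (FS.atx θ x).rank = n := by
    intro x
    have hE := at_c (n := n + r) x
    show (θ (chartAt (Cm (n + r)) x) (chartAt (Cm (n + r)) x x)).rank = n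
    simp only [hθ]
    rw [pull_at hP hE, rank_smul' (by exact_mod_cast hcm.ne')]
    exact rank_pull (sub_pi hL hH hP hE (at_c (π x))) (hw.posDef _ _ (at_c (π x)))
  have hvol : ∀ x, FS.VolIs (FS.Cm (n + r)) m k (Wv hB s ψ) (FS.Pot θ α x) x
      (r := 0) (fun i => i.elim0) (fun i => i.elim0) := by
    intro x
    obtain ⟨h1, T, eq, u, h2, h3, h4, h5⟩ := volIs hB hm hD hψ x
    refine ⟨h1, T, eq, u, h2, h3, ⟨h4.1, h4.2.mono fun z hz c hc => ?_⟩, h5⟩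
    have h6 := hz c hc
    rw [← h6]
    show θ c (FS.co c z) - (θ c (FS.co c z) + ((-((m : ℝ)⁻¹) : ℝ) : ℂ) • cv hB.lb ψ c (FS.co c z)) =
      (((m : ℝ)⁻¹ : ℝ) : ℂ) • cv hB.lb ψ c (FS.co c z) - 0
    rw [Complex.ofReal_neg, neg_smul]
    abel
  refine ⟨m, n, 0, k, α, θ, Wv hB s ψ, ⟨hm, hk, fs_semiKahler hαK, hθS, fun x => (hrk x).le, ?_,
    ⟨Classical.arbitrary F, Nat.zero_le _⟩, fun x => ⟨0, _, _, hvol x,
      Filter.Eventually.of_forall fun z i => i.elim0⟩⟩, by omega, ?_, ?_, fun u => ⟨0, _, _,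
      hvol (ι u), fun l => l.elim0, fun l => l.elim0⟩⟩
  · have h1 : {x : X | (FS.atx θ x).rank = n} = univ := by
      ext x
      simp only [mem_setOf_eq, mem_univ, iff_true]
      exact hrk x
    rw [h1]
    exact dense_univ
  · refine hcase.imp id fun ⟨M, Q, hQ⟩ => ⟨M, _, isFS_pull hP hQ hcm⟩
  · have h1 : {u : F | (FS.atx (FS.pull (d := d) ι α) u).PosDef} = univ := by
      ext u
      simp only [mem_setOf_eq, mem_univ, iff_true]
      have h2 := (Vale.Agent.P281.H167.NU.kahler_pull hι himm hαK).posDef (chartAt (Cm d) u) u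
        ⟨chart_mem_atlas _ _, mem_chart_source _ _⟩
      rw [← FS.pull_eq]
      exact h2
    rw [h1]
    exact dense_univ

/-- **Mori part**: if `K_X + Δ` has negative degree on the fibres of `π`, then for every `f : X ⇢ Y`
either `κ(F, K_F + Δ|_F) = -∞` or the orbifold base dimension is `-∞` -/
theorem mori_bundle {n r p d : ℕ} (hr : 1 ≤ r) (hn : n + r = p + d)
    {Z : Type} [TopologicalSpace Z] [T2Space Z] [CompactSpace Z] [ChartedSpace (Cm n) Z]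
    [IsManifold 𝓘(ℂ, Cm n) ω Z]
    {X V Y F : Type} [TopologicalSpace X] [T2Space X] [CompactSpace X] [ConnectedSpace X]
    [ChartedSpace (Cm (n + r)) X]
    [TopologicalSpace V] [ChartedSpace (Cm (n + r)) V]
    [TopologicalSpace Y] [T2Space Y] [ConnectedSpace Y] [ChartedSpace (Cm p) Y]
    [TopologicalSpace F] [T2Space F] [CompactSpace F] [ConnectedSpace F] [ChartedSpace (Cm d) F]
    {w : Chart n Z → Cm n → Matrix (Fin n) (Fin n) ℂ} (hw : Vale.Agent.P272.K.IsKahler w)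
    {w' : Chart (n + r) X → Cm (n + r) → Matrix (Fin (n + r)) (Fin (n + r)) ℂ}
    (hw' : Vale.Agent.P272.K.IsKahler w')
    {L : Fin (r + 1) → Bd Z} {N : Bd Z} {π : X → Z} {H : Bd X}
    {t : (j : Fin (r + 1)) → H.ι → (L j).ι → X → ℂ} {m e : ℕ}
    (hL : ∀ j, IsLB n (L j)) (hN : IsLB n N) (hH : IsLB (n + r) H) (hP : IsPB n r L π H t)
    (he : e < m * (r + 1)) {k : Set X → ℕ} {Δ : Set X → ℝ} {s : H.ι × N.ι → X → ℂ}
    (hD : DivB (n + r) k ((H.pow e).mul (pull π N)) s) (hk : ∀ D, (k D : ℝ) = m * Δ D)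
    (hcase : (∀ D, Δ D < 1) ∨ ∃ (M : ℕ) (Q : Z → Fin M → ℂ), FS.IsFS (n := n) Q w)
    {j : V → X} {f : V → Y} {i : F → V}
    (hi : FS.Setup (FS.Cm (n + r)) (FS.Cm p) (FS.Cm d) Δ j f i) :
    FS.kodR (FS.Cm (n + r)) (FS.Cm d) (fun u => j (i u)) Δ + FS.kodF (n + r) p Δ j f = ⊥ := by
  obtain ⟨hX, hV, hY, hF, hΔ, hj, hf, hii, hne⟩ := id hi
  haveI := hX
  haveI := hV
  haveI := hY
  haveI := hF
  have hι : ContMDiff 𝓘(ℂ, Cm d) 𝓘(ℂ, Cm (n + r)) ω (fun u => j (i u)) := fun u =>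
    ContMDiffAt.comp u (hj.1 (i u)) (hii.1 u)
  have himm : ∀ s, Function.Injective
      (mfderiv 𝓘(ℂ, Cm d) 𝓘(ℂ, Cm (n + r)) (fun u => j (i u)) s) := by
    intro s
    have h1 : MDifferentiableAt 𝓘(ℂ, Cm (n + r)) 𝓘(ℂ, Cm (n + r)) j (i s) :=
      (hj.1 (i s)).mdifferentiableAt (by simp)
    have h2 : MDifferentiableAt 𝓘(ℂ, Cm d) 𝓘(ℂ, Cm (n + r)) i s :=
      (hii.1 s).mdifferentiableAt (by simp)
    have h3 := mfderiv_comp s h1 h2
    have h4 : mfderiv 𝓘(ℂ, Cm d) 𝓘(ℂ, Cm (n + r)) (fun u => j (i u)) s =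
      (mfderiv 𝓘(ℂ, Cm (n + r)) 𝓘(ℂ, Cm (n + r)) j (i s)).comp
        (mfderiv 𝓘(ℂ, Cm d) 𝓘(ℂ, Cm (n + r)) i s) := h3
    rw [h4]
    exact (hj.2.2.1 (i s)).comp (hii.2.1 s)
  exact FS.mori_of FS.mainPartML hn w' (fs_kahler hw') Δ j f i hi
    (hasMori hr hw hL hN hH hP he hD hk hcase hι himm)

end

end Vale.Agent.P281.R2.H877.PB
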