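import Vale.Agent.P281.R2.H73.Defs
import Vale.Agent.P281.R2.H73.Bdl
import Vale.Agent.P281.R2.H877.Fsz
import Vale.Agent.P281.R2.H877.Hyp

/-!
# P281, R2, row B7 (7): Campana's inequality on projective bundles over hyperbolic orbifolds
-/

open scoped Manifold ContDiff Topology
open Filter Set

set_option linter.all false

noncomputable section

namespace Vale.Agent.P281.R2.H877.PB

open Vale.Agent.P281 Vale.Agent.P285.H281.FD Vale.Agent.P272.K Vale.Agent.P285.H766.PB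
open Vale.Agent.P285.LK
open Vale.Agent.P281.R2.H73 (DivB Ineq)
open Vale.Agent.P281.R2.H391 (ZD)

section
variable {n r p d : ℕ} {B X Z Y F : Type}
  [TopologicalSpace B] [T2Space B] [CompactSpace B] [ConnectedSpace B] [ChartedSpace (Cm n) B]
  [IsManifold 𝓘(ℂ, Cm n) ω B]
  [TopologicalSpace X] [T2Space X] [CompactSpace X] [ConnectedSpace X] [ChartedSpace (Cm (n + r)) X]
  [TopologicalSpace Z] [ChartedSpace (Cm (n + r)) Z]
  [TopologicalSpace Y] [T2Space Y] [ConnectedSpace Y] [ChartedSpace (Cm p) Y]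
  [TopologicalSpace F] [T2Space F] [CompactSpace F] [ConnectedSpace F] [ChartedSpace (Cm d) F]
  {w : Chart n B → Cm n → Matrix (Fin n) (Fin n) ℂ}
  {w' : Chart (n + r) X → Cm (n + r) → Matrix (Fin (n + r)) (Fin (n + r)) ℂ}
  {L : Fin (r + 1) → Bd B} {N : Bd B} {π : X → B} {H : Bd X}
  {t : (j : Fin (r + 1)) → H.ι → (L j).ι → X → ℂ} {m e : ℕ} {s : H.ι × N.ι → X → ℂ}
  {Δ : Set X → ℝ} {j : Z → X} {f : Z → Y} {i : F → Z} {kk : Set X → ℕ}

theorem mori_ineq (hr : 1 ≤ r) (hn : n + r = p + d) (hw : IsKahler w) (hw' : IsKahler w')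
    (hL : ∀ j, IsLB n (L j)) (hN : IsLB n N) (hH : IsLB (n + r) H) (hPB : IsPB n r L π H t)
    (hi : FS.Setup (Cm (n + r)) (Cm p) (Cm d) Δ j f i)
    (hD : DivB (n + r) kk ((H.pow e).mul (pull π N)) s) (hk : ∀ D, (kk D : ℝ) = m * Δ D)
    (he : e < m * (r + 1))
    (h : (∀ D, Δ D < 1) ∨ ∃ A : Bd B, IsLB n A ∧ Vale.Agent.P285.R2.H80.Ample n A) :
    FS.kodR (Cm (n + r)) (Cm d) (fun t => j (i t)) Δ + FS.kodF (n + r) p Δ j f = ⊥ ∧
      Ineq (n + r) p d Δ j f i := by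
  have h2 : FS.kodR (Cm (n + r)) (Cm d) (fun t => j (i t)) Δ + FS.kodF (n + r) p Δ j f = ⊥ := by
    rcases h with h | ⟨A, hA, hA'⟩
    · exact mori_bundle hr hn hw hw' hL hN hH hPB he hD hk (Or.inl h) hi
    · obtain ⟨w₁, hw₁, h3⟩ := fs_of_ample hA hA'
      exact mori_bundle hr hn hw₁ hw' hL hN hH hPB he hD hk (Or.inr h3) hi
  refine ⟨h2, ?_⟩
  unfold Ineq
  rw [h2]
  exact bot_le

/-- bundles over hyperbolic orbifolds -/
theorem orb_ineq (hn1 : 1 ≤ n) (hr : 1 ≤ r) (hn : n + r = p + d) (hw : IsKahler w)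
    {k : ℕ} {S : Fin k → Chart n B → Cm n → ℂ} {φ : Fin k → Chart n B → Cm n → ℝ}
    {c : Fin k → Chart n B → Cm n → Matrix (Fin n) (Fin n) ℂ} {μ : Fin k → ℕ}
    (hS : IsSNCDivisor S φ c) (hμ : ∀ i, μ i ≠ 1) (hB : OrbifoldBrody n B S μ)
    (hw' : IsKahler w')
    (hL : ∀ j, IsLB n (L j)) (hN : IsLB n N) (hH : IsLB (n + r) H) (hPB : IsPB n r L π H t)
    (hi : FS.Setup (Cm (n + r)) (Cm p) (Cm d) Δ j f i)
    (hD : DivB (n + r) kk ((H.pow e).mul (pull π N)) s) (hk : ∀ D, (kk D : ℝ) = m * Δ D)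
    (hm : 0 < m) (hle : ∀ i, 1 - (μ i : ℝ)⁻¹ ≤ Δ (π ⁻¹' ZD (S i))) :
    Ineq (n + r) p d Δ j f i := by
  rcases Nat.lt_or_ge e (m * (r + 1)) with he | he
  · have hpos : ∀ i, 0 < Δ (π ⁻¹' ZD (S i)) := by
      intro i
      refine lt_of_lt_of_le ?_ (hle i)
      rcases Nat.eq_zero_or_pos (μ i) with h | h
      · rw [h]
        simp
      · have h2 : (2 : ℝ) ≤ μ i := by
          have := hμ i
          have h3 : 2 ≤ μ i := by omega
          exact_mod_cast h3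
        have h3 : (μ i : ℝ)⁻¹ ≤ 2⁻¹ := inv_anti₀ two_pos h2
        linarith
    have hne : ∀ i, (ZD (S i)).Nonempty := by
      intro i
      obtain ⟨-, -, h⟩ := hi.2.2.2.2.1.1.2.1 _ (hpos i).ne'
      obtain ⟨x, hx⟩ := h.nonempty
      exact ⟨π x, hx.1⟩
    haveI : IsManifold 𝓘(ℂ, Cm (n + r)) ω X := hi.1
    exact (mori_ineq hr hn hw hw' hL hN hH hPB hi hD hk he
      (Or.inr (ample_of_hyp hn1 hw hS hμ hB hne))).2
  · exact Vale.Agent.P281.R2.H73.campana_pb_orb hn1 hr hn hw hS hμ hB hw' hL hN hH hPB hi hD hk hm he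
      hle

end

end Vale.Agent.P281.R2.H877.PB
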