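import Vale.Agent.P281.R2.H877.PbFin

/-!
# P281, B7: the proof of the result
-/

open scoped Manifold ContDiff
open Vale.Agent.P281.FS

noncomputable section

namespace Vale.Agent.P281.R2.H877.PB

open Vale.Agent.P281.R2.H73 (DivB)
open Vale.Agent.P285.H281.FD (Bd IsLB)
open Vale.Agent.P285.H766.PB (IsPB)
open Vale.Agent.P272.K (NonposHSC)

theorem pb_res {n r p d : ℕ} (h1 : 1 ≤ n) (hr : 1 ≤ r) (hn : n + r = p + d) {B X V Y F : Type}
    [TopologicalSpace B] [T2Space B] [CompactSpace B] [ConnectedSpace B] [Mfd n B]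
    [IsManifold 𝓘(ℂ, Cm n) ω B]
    [TopologicalSpace X] [T2Space X] [CompactSpace X] [ConnectedSpace X] [Mfd (n + r) X]
    [TopologicalSpace V] [Mfd (n + r) V]
    [TopologicalSpace Y] [T2Space Y] [ConnectedSpace Y] [Mfd p Y]
    [TopologicalSpace F] [T2Space F] [CompactSpace F] [ConnectedSpace F] [Mfd d F]
    {w : Form n B} (hw : Vale.Agent.P272.K.IsKahler w)
    {w' : Form (n + r) X} (hw' : Vale.Agent.P272.K.IsKahler w')
    {L : Fin (r + 1) → Bd B} (hL : ∀ l, IsLB n (L l)) {N : Bd B} (hN : IsLB n N) {H : Bd X}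
    (hH : IsLB (n + r) H) {π : X → B} {t : (l : Fin (r + 1)) → H.ι → (L l).ι → X → ℂ}
    (hX : IsPB n r L π H t) {Δ : Set X → ℝ} {m e : ℕ} (hm : 0 < m) {k : Set X → ℕ}
    (hk : ∀ D, k D = m * Δ D) {s : H.ι × N.ι → X → ℂ}
    (hs : DivB (n + r) k ((H.pow e).mul (Vale.Agent.P285.H766.PB.pull π N)) s)
    {j : V → X} {f : V → Y} {i : F → V}
    (hi : Setup (Cm (n + r)) (Cm p) (Cm d) Δ j f i) (hinj : Function.Injective i) :
    (e < m * (r + 1) → (∀ D, Δ D < 1) →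
      kodR (Cm (n + r)) (Cm d) (fun t => j (i t)) Δ + kodF (n + r) p Δ j f = ⊥ ∧
        Vale.Agent.P281.R2.H73.Ineq (n + r) p d Δ j f i) ∧
    (m * (r + 1) ≤ e → NonposHSC w → Vale.Agent.P281.R2.H73.Ineq (n + r) p d Δ j f i) ∧
    OrbLe (Cm (n + r)) (Cm p) Δ j f (kodF (n + r) p Δ j f) := by
  refine ⟨fun he h => ?_, fun he hR => ?_, orb_of Δ j f i hi⟩
  · exact Vale.Agent.P281.R2.H877.PB.mori_ineq hr hn hw hw' hL hN hH hX hi hs hk he (Or.inl h)
  · exact Vale.Agent.P281.R2.H73.campana_pb h1 hr hn hw (Or.inl hR) hw' hL hN hH hX hi hinj hs hk hm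
      (Or.inl ⟨hR, he⟩)

end Vale.Agent.P281.R2.H877.PB
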